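import Mathlib
import Vale.Agent.P308.Main

/-!
# P308: near-perfect versus perfect matchings in graphs of bounded independence number

For a finite graph `G` on `n` vertices with a perfect matching, the number of near-perfect
matchings is at most `n ^ (3 h + 1)` times the number of perfect matchings, where `h` is the
largest size of a triangular matching from an independent set. In particular `h ≤ α(G)`, and
`h ≤ α(H)` if `G` is a blow-up of `H` (vertices of `H` replaced by independent sets).
-/

namespace Vale.Agent.Results.P308.IndependenceRatio

open Vale.Agent.P308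

theorem result :
    (∀ (V : Type) [Fintype V] (G : SimpleGraph V) (k : ℕ), 0 < numPerfect G →
      ¬ TriangularMatching G (k + 1) →
      numNearPerfect G ≤ Fintype.card V ^ (3 * k + 1) * numPerfect G) ∧
    (∀ (V W : Type) [Fintype V] [Fintype W] (G : SimpleGraph V) (H : SimpleGraph W) (φ : V → W),
      (∀ a b, G.Adj a b ↔ H.Adj (φ a) (φ b)) → 0 < numPerfect G →
      numNearPerfect G ≤ Fintype.card V ^ (3 * H.indepNum + 1) * numPerfect G) :=
  ⟨fun _ _ _ _ h0 hk => card_bound h0 hk, fun _ _ _ _ _ _ φ hφ h0 => card_bound h0 (not_tri φ hφ)⟩

end Vale.Agent.Results.P308.IndependenceRatio
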